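import Vale.Agent.P181.SZ.Spec2

set_option autoImplicit false

/-!
# P181, PL: the literals of the polylog line

Foulkes' inequality for all partitions when `b ≥ C a (1 + log a) ^ c`.
Rows are 0-indexed, `D_j` is the number of cells in the rows `≥ j`, `w = D_1`.
-/

namespace Vale.Agent.P181.PL

open Vale.Agent.P181.T4 (HW ex low)
open Vale.Agent.P181.H280 (plethMult)
open Vale.Agent.P181.H463 (gt)
open Vale.Agent.P181.SZ (nn)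

/-- The cells in the rows `≥ j`. -/
def dn {n : ℕ} (lam : Fin n → ℕ) (j : ℕ) : ℕ := ∑ i : Fin n, if j ≤ (i : ℕ) then lam i else 0

/-- **(P1)** Pieri: a horizontal strip filled with a letter of a new size. -/
def PieS : Prop := ∀ (m x : ℕ) (mu nu : Fin m → ℕ) (k : Multiset ℕ), 0 < x → x ∉ k →
  (∀ i, mu i ≤ nu i) → (∀ i : Fin m, ex nu ((i : ℕ) + 1) ≤ mu i) →
  ∑ i, nu i = ∑ i, mu i + x → nn m mu k ≤ nn m nu (x ::ₘ k)

/-- **(P2)** the LE core, explicit: `u = 2`, every `a T ^ 12 ≤ k ^ 2`, `T` a real parameter. -/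
def LEx : Prop := ∀ (a k b n : ℕ) (lam : Fin n → ℕ) (T : ℝ), 1 ≤ a →
  10 ^ 10 * (1 + Real.log a) ^ 6 ≤ T → n ≤ a → k ≤ a → (a : ℝ) * T ^ 12 ≤ (k : ℝ) ^ 2 →
  (a : ℝ) * T ^ 6 ≤ b → b ≤ a ^ 2 → Antitone lam → ∑ i, lam i = k * b →
  T ^ 7 * (ex lam 0 : ℝ) ≤ (k : ℝ) * b →
  (gt n a lam : ℝ) * Real.exp (2 * b) ≤ plethMult b k n lam

/-- **(P3)** the lower bound for a spread and heavy tail. -/
def LBI : Prop := ∀ (a b n J R X D : ℕ) (lam : Fin n → ℕ), Antitone lam →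
  ∑ i, lam i = a * b → 1 ≤ R → R < n → n ≤ J →
  10 ^ 12 * (1 + Real.log J) ^ 6 ≤ X → R ≤ X ^ 14 → D = dn lam R →
  X ^ 12 * ex lam R ≤ D → a * X ^ 40 ≤ D → J ^ 3 * X ^ 80 ≤ D ^ 2 → D ≤ J ^ 2 → D ≤ a * J →
  J * X ^ 60 ≤ b → 2 * dn lam 1 ≤ a * b →
  (gt (n - R) J (low R lam) : ℝ) * Real.exp (J * X ^ 16 : ℕ) ≤ plethMult b a n lam

/-- **(P4)** two long rows: `H12.branch` for `n` rows and tableaux with `J` letters. -/
def LBL : Prop := ∀ (a b n J K P L N : ℕ) (lam : Fin n → ℕ), Antitone lam →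
  ∑ i, lam i = a * b → 2 ≤ n → n ≤ J → N = K * P * 2 → 8 * J ≤ N →
  1000 * P ≤ a → a ≤ 2000 * P → 5000 ≤ K → 30 * K + 40 ≤ a → 4 * a ≤ N → b ≤ a ^ 2 →
  3 * (a * N) ≤ ex lam 1 → 2 * b + 2 * N + a * N ≤ ex lam 1 → 8 * dn lam 2 ≤ a * N →
  Real.log a ≤ K → 16 * K * Real.log J ≤ L → 100 * N * K * Real.log J ≤ dn lam (2 + L) →
  (gt (n - 2) J (low 2 lam) : ℝ) * Real.exp N ≤ plethMult b a n lam

/-- **(P5)** the size type assembly with one more letter of size `a` in a horizontal strip. -/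
def AsmP : Prop := ∀ (a b n R X Z K w a0 b0 : ℕ) (lam nu : Fin n → ℕ), Antitone lam →
  ∑ i, lam i = a * b → (∀ i, 0 < lam i) → 1 ≤ R → R + 1 < n →
  w = dn lam 1 → Z ^ 2 ≤ w → w < (Z + 1) ^ 2 →
  1 ≤ K → 16 * K + 16 ≤ X → X ≤ Z → 4 * w ≤ X ^ K → 100 * K * ((Z + 1) * X) ≤ a →
  100 * a ≤ b → 1 ≤ a0 → a0 < a → a + a0 * (a0 + 2) ≤ w → 3 * (b0 + 1) ≤ b →
  (∀ i : Fin n, 1 ≤ (i : ℕ) → nu i ≤ lam i) →
  (∀ i : Fin n, 1 ≤ (i : ℕ) → ex lam ((i : ℕ) + 1) ≤ nu i) → w = dn nu 1 + a →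
  (n ≤ Z * X ^ 2 → 2 * ((w + 1) ^ ((R + 1) * (Z * X ^ 2)) *
    gt (n - R) (Z * X ^ 2 + 1) (low R nu)) ≤ plethMult b0 a0 n nu) →
  plethMult a b n lam ≤ plethMult b a n lam

/-- **(P6)** the direct assembly: stabilised lower bound, trivial upper bound. -/
def AsmD : Prop := ∀ (a b n R a0 b0 : ℕ) (lam nu : Fin n → ℕ), Antitone lam →
  ∑ i, lam i = a * b → 1 ≤ n → R ≤ n → ∑ i, nu i = a0 * b0 → a0 ≤ a → b0 ≤ b →
  (∀ i : Fin n, 1 ≤ (i : ℕ) → nu i = lam i) →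
  (ex lam 0 + 1) ^ (a * R) * gt (n - R) a (low R lam) ≤ plethMult b0 a0 n nu →
  plethMult a b n lam ≤ plethMult b a n lam

/-- **(P7)** case I explicit: the tail behind row `R` is spread and `D_R ≥ a ^ (3/2) X ^ 80`. -/
def CaseIX : Prop := ∀ (a b R X D : ℕ) (lam : Fin a → ℕ), Antitone lam →
  ∑ i, lam i = a * b → b ≤ a ^ 2 → 1 ≤ R → R < a → 10 ^ 12 * (1 + Real.log a) ^ 6 ≤ X →
  R ≤ X ^ 14 → D = dn lam R → X ^ 13 * ex lam R ≤ D → a ^ 3 * X ^ 160 ≤ D ^ 2 →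
  a * X ^ 130 ≤ b → plethMult a b a lam ≤ plethMult b a a lam

/-- The common hypotheses of the two halves: `X` is a fixed power of `log a`. -/
def Hy (a b n X : ℕ) (lam : Fin n → ℕ) : Prop :=
  Antitone lam ∧ ∑ i, lam i = a * b ∧ (∀ i, 0 < lam i) ∧ n ≤ a ∧ b ≤ a ^ 2 ∧
    a * X ^ 6000 ≤ b ∧ X ^ 20000 ≤ a ∧ 10 ^ 12 * (1 + Real.log a) ^ 7 ≤ X ∧
    b ≤ 2 * dn lam 2 ∧ a < ex lam 1

/-- **(P8)** the tail behind row `R` is spread and heavy. -/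
def HeavyS : Prop := ∀ (a b n X R : ℕ) (lam : Fin n → ℕ), Hy a b n X lam → 3 ≤ R → R < n →
  R ≤ X ^ 14 → X ^ 13 * ex lam R ≤ dn lam R → dn lam 2 ≤ X ^ 2600 * dn lam R →
  plethMult a b n lam ≤ plethMult b a n lam

/-- The hypotheses of the heavy half. -/
def HyR (a b n X R : ℕ) (lam : Fin n → ℕ) : Prop :=
  Hy a b n X lam ∧ 3 ≤ R ∧ R < n ∧ R ≤ X ^ 14 ∧ X ^ 13 * ex lam R ≤ dn lam R ∧
    dn lam 2 ≤ X ^ 2600 * dn lam R

/-- **(P8.1)** from `CaseIX`. -/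
def Heavy1 : Prop := ∀ (a b n X R : ℕ) (lam : Fin n → ℕ), HyR a b n X R lam →
  a ^ 2 ≤ dn lam 1 * X ^ 4 → a ^ 2 ≤ dn lam 2 * X ^ 100 →
  plethMult a b n lam ≤ plethMult b a n lam

/-- **(P8.2)** from `LBL` and `AsmD`. -/
def Heavy2 : Prop := ∀ (a b n X R : ℕ) (lam : Fin n → ℕ), HyR a b n X R lam →
  a ^ 2 ≤ dn lam 1 * X ^ 4 → dn lam 2 * X ^ 100 < a ^ 2 →
  plethMult a b n lam ≤ plethMult b a n lam

/-- **(P8.3)** from `LBL` and `AsmP`. -/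
def Heavy3 : Prop := ∀ (a b n X R : ℕ) (lam : Fin n → ℕ), HyR a b n X R lam →
  dn lam 1 * X ^ 4 < a ^ 2 → X ^ 2 * dn lam 2 ≤ dn lam 1 →
  plethMult a b n lam ≤ plethMult b a n lam

/-- **(P8.4)** from `LBI` and `AsmP`. -/
def Heavy4 : Prop := ∀ (a b n X R : ℕ) (lam : Fin n → ℕ), HyR a b n X R lam →
  dn lam 1 * X ^ 4 < a ^ 2 → dn lam 1 < X ^ 2 * dn lam 2 →
  plethMult a b n lam ≤ plethMult b a n lam

/-- **(P9)** the tail behind row `R` is light (or empty). -/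
def LightS : Prop := ∀ (a b n X R : ℕ) (lam : Fin n → ℕ), Hy a b n X lam → 3 ≤ R →
  R ≤ X ^ 14 → X ^ 2550 * dn lam R ≤ ex lam 2 →
  plethMult a b n lam ≤ plethMult b a n lam

/-- **(P10)** the scan over `R`: all shapes with positive rows. -/
def ScanS : Prop := ∀ (a b n X : ℕ) (lam : Fin n → ℕ), Antitone lam → ∑ i, lam i = a * b →
  (∀ i, 0 < lam i) → n ≤ a → b ≤ a ^ 2 → a * X ^ 6000 ≤ b → X ^ 20000 ≤ a →
  10 ^ 12 * (1 + Real.log a) ^ 7 ≤ X → plethMult a b n lam ≤ plethMult b a n lam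

/-- **(P11)** the main theorem. -/
def PolyS : Prop := ∃ (C : ℝ) (c : ℕ), 0 < C ∧ ∀ a b : ℕ,
  C * a * (1 + Real.log a) ^ c ≤ b →
  ∀ (n : ℕ) (lam : Fin n → ℕ), plethMult a b n lam ≤ plethMult b a n lam

theorem heavy_of (h1 : Heavy1) (h2 : Heavy2) (h3 : Heavy3) (h4 : Heavy4) : HeavyS := by
  intro a b n X R lam h hR hRn hRX hs hD
  have hy : HyR a b n X R lam := ⟨h, hR, hRn, hRX, hs, hD⟩
  rcases lt_or_ge (dn lam 1 * X ^ 4) (a ^ 2) with hw | hw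
  · rcases lt_or_ge (dn lam 1) (X ^ 2 * dn lam 2) with hd | hd
    · exact h4 a b n X R lam hy hw hd
    · exact h3 a b n X R lam hy hw hd
  · rcases lt_or_ge (dn lam 2 * X ^ 100) (a ^ 2) with hd | hd
    · exact h2 a b n X R lam hy hw hd
    · exact h1 a b n X R lam hy hw hd

end Vale.Agent.P181.PL
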