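import Vale.Agent.P181.PL.Defs

set_option autoImplicit false

/-!
# P181, PL: elementary lemmas about `dn`, and the strip
-/

namespace Vale.Agent.P181.PL

open Vale.Agent.P181.T4 (ex low)

lemma exlt {n : ℕ} (lam : Fin n → ℕ) {i : ℕ} (h : i < n) : ex lam i = lam ⟨i, h⟩ := by
  unfold ex
  rw [dif_pos h]

lemma exge {n : ℕ} (lam : Fin n → ℕ) {i : ℕ} (h : n ≤ i) : ex lam i = 0 := by
  unfold ex
  rw [dif_neg (by omega)]

lemma exfin {n : ℕ} (lam : Fin n → ℕ) (i : Fin n) : ex lam (i : ℕ) = lam i := exlt lam i.2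

lemma exanti {n : ℕ} {lam : Fin n → ℕ} (h : Antitone lam) {i j : ℕ} (hij : i ≤ j) :
    ex lam j ≤ ex lam i := by
  by_cases hj : j < n
  · rw [exlt lam hj, exlt lam (by omega : i < n)]
    exact h (by rw [Fin.mk_le_mk]; exact hij)
  · rw [exge lam (by omega)]
    exact Nat.zero_le _

lemma dn_zero {n : ℕ} (lam : Fin n → ℕ) : dn lam 0 = ∑ i, lam i := by
  unfold dn
  simp

lemma dn_ge {n : ℕ} (lam : Fin n → ℕ) {j : ℕ} (h : n ≤ j) : dn lam j = 0 := by
  unfold dn
  apply Finset.sum_eq_zero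
  intro i _
  rw [if_neg]
  have := i.2
  omega

lemma dn_succ {n : ℕ} (lam : Fin n → ℕ) (j : ℕ) : dn lam j = ex lam j + dn lam (j + 1) := by
  have h1 : ex lam j = ∑ i : Fin n, if (i : ℕ) = j then lam i else 0 := by
    by_cases hj : j < n
    · rw [exlt lam hj, Finset.sum_eq_single ⟨j, hj⟩]
      · simp
      · intro i _ hi
        rw [if_neg]
        intro h
        exact hi (Fin.ext h)
      · intro h
        exact absurd (Finset.mem_univ _) h
    · rw [exge lam (by omega)]
      symm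
      apply Finset.sum_eq_zero
      intro i _
      rw [if_neg]
      have := i.2
      omega
  rw [h1]
  unfold dn
  rw [← Finset.sum_add_distrib]
  apply Finset.sum_congr rfl
  intro i _
  by_cases h2 : (i : ℕ) = j
  · rw [if_pos (by omega), if_pos h2, if_neg (by omega), add_zero]
  · by_cases h3 : j ≤ (i : ℕ)
    · rw [if_pos h3, if_neg h2, if_pos (by omega), zero_add]
    · rw [if_neg h3, if_neg h2, if_neg (by omega)]

lemma dn_anti {n : ℕ} (lam : Fin n → ℕ) {i j : ℕ} (h : i ≤ j) : dn lam j ≤ dn lam i := by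
  unfold dn
  apply Finset.sum_le_sum
  intro k _
  by_cases h2 : j ≤ (k : ℕ)
  · rw [if_pos h2, if_pos (by omega)]
  · rw [if_neg h2]
    exact Nat.zero_le _

/-- `D_i ≤ D_j + (j - i) λ_i`. -/
lemma dn_le {n : ℕ} {lam : Fin n → ℕ} (h : Antitone lam) (i k : ℕ) :
    dn lam i ≤ dn lam (i + k) + k * ex lam i := by
  induction k with
  | zero => simp
  | succ k ih =>
    have h1 := dn_succ lam (i + k)
    have h2 : ex lam (i + k) ≤ ex lam i := exanti h (by omega)
    have h3 : i + (k + 1) = i + k + 1 := by ring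
    rw [h3, add_mul, one_mul]
    omega

lemma ex_le_dn {n : ℕ} (lam : Fin n → ℕ) (j : ℕ) : ex lam j ≤ dn lam j := by
  rw [dn_succ]
  exact Nat.le_add_right _ _

lemma sum_fin_eq {m : ℕ} (f : ℕ → ℕ) : ∑ i : Fin m, f (i : ℕ) = ∑ i ∈ Finset.range m, f i :=
  Fin.sum_univ_eq_sum_range f m

lemma dn_eq_range {n : ℕ} (lam : Fin n → ℕ) (j : ℕ) :
    dn lam j = ∑ i ∈ Finset.range (n - j), ex lam (j + i) := by
  obtain ⟨k, hk⟩ : ∃ k, k = n - j := ⟨_, rfl⟩
  rw [← hk]
  induction k generalizing j with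
  | zero =>
    rw [dn_ge lam (by omega)]
    simp
  | succ k ih =>
    rw [dn_succ, ih (j + 1) (by omega), Finset.sum_range_succ', add_comm, Nat.add_zero]
    congr 1
    apply Finset.sum_congr rfl
    intro i _
    congr 1
    ring

lemma sum_low {n : ℕ} (lam : Fin n → ℕ) (R : ℕ) : ∑ i, low R lam i = dn lam R := by
  rw [dn_eq_range]
  exact Fin.sum_univ_eq_sum_range (fun i => ex lam (R + i)) (n - R)

lemma dn_congr {n : ℕ} {f g : Fin n → ℕ} {j : ℕ} (h : ∀ i : Fin n, j ≤ (i : ℕ) → f i = g i) :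
    dn f j = dn g j := by
  unfold dn
  apply Finset.sum_congr rfl
  intro i _
  by_cases hj : j ≤ (i : ℕ)
  · rw [if_pos hj, if_pos hj, h i hj]
  · rw [if_neg hj, if_neg hj]

lemma dn_mono {n : ℕ} {f g : Fin n → ℕ} {j : ℕ} (h : ∀ i : Fin n, j ≤ (i : ℕ) → f i ≤ g i) :
    dn f j ≤ dn g j := by
  unfold dn
  apply Finset.sum_le_sum
  intro i _
  by_cases hj : j ≤ (i : ℕ)
  · rw [if_pos hj, if_pos hj]
    exact h i hj
  · rw [if_neg hj, if_neg hj]

/-- the cells of the strip in the row `i ≥ 1` -/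
def rr {n : ℕ} (lam : Fin n → ℕ) (a i : ℕ) : ℕ :=
  min a (ex lam 1 - ex lam (i + 1)) - min a (ex lam 1 - ex lam i)

lemma rr_le {n : ℕ} {lam : Fin n → ℕ} (h : Antitone lam) (a : ℕ) {i : ℕ} (hi : 1 ≤ i) :
    rr lam a i + ex lam (i + 1) ≤ ex lam i := by
  unfold rr
  have h1 : ex lam (i + 1) ≤ ex lam i := exanti h (by omega)
  have h2 : ex lam i ≤ ex lam 1 := exanti h hi
  omega

lemma sum_rr {n : ℕ} {lam : Fin n → ℕ} (h : Antitone lam) (a : ℕ) (j k : ℕ) : ∑ i ∈ Finset.range k, rr lam a (j + i) + min a (ex lam 1 - ex lam j) =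
      min a (ex lam 1 - ex lam (j + k)) := by
  induction k with
  | zero => simp
  | succ k ih =>
    rw [Finset.sum_range_succ]
    have h1 : ex lam (j + k + 1) ≤ ex lam (j + k) := exanti h (by omega)
    have h3 : j + (k + 1) = j + k + 1 := by ring
    rw [h3]
    have h2 : rr lam a (j + k) = min a (ex lam 1 - ex lam (j + k + 1)) -
      min a (ex lam 1 - ex lam (j + k)) := rfl
    rw [h2]
    omega

/-- **the strip**: a horizontal strip with `a` cells in the rows `≥ 1`, as high as possible. -/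
lemma exists_nu {n : ℕ} (hn : 2 ≤ n) {lam : Fin n → ℕ} (h : Antitone lam) {a T : ℕ}
    (ha : a ≤ ex lam 1) (hT : dn lam 1 + ex lam 1 ≤ T + a) :
    ∃ nu : Fin n → ℕ, Antitone nu ∧ ∑ i, nu i = T ∧
      (∀ i : Fin n, 1 ≤ (i : ℕ) → nu i ≤ lam i) ∧
      (∀ i : Fin n, 1 ≤ (i : ℕ) → ex lam ((i : ℕ) + 1) ≤ nu i) ∧
      dn lam 1 = dn nu 1 + a ∧
      (∀ j, 1 ≤ j → dn lam j + min a (ex lam 1 - ex lam j) = dn nu j + a ∨ n < j) ∧
      (∀ j, 1 ≤ j → dn nu j ≤ dn lam j) := by
  obtain ⟨nu, hnu⟩ : ∃ nu : Fin n → ℕ, nu = fun i : Fin n =>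
      if (i : ℕ) = 0 then T + a - dn lam 1 else lam i - rr lam a (i : ℕ) := ⟨_, rfl⟩
  have h1 : ∀ i : Fin n, 1 ≤ (i : ℕ) → nu i + rr lam a (i : ℕ) = lam i := by
    intro i hi
    rw [hnu]
    simp only
    rw [if_neg (by omega)]
    have := rr_le h a hi
    rw [exfin] at this
    omega
  have hle : ∀ i : Fin n, 1 ≤ (i : ℕ) → nu i ≤ lam i := fun i hi => by
    have := h1 i hi
    omega
  have hge : ∀ i : Fin n, 1 ≤ (i : ℕ) → ex lam ((i : ℕ) + 1) ≤ nu i := by
    intro i hi
    have h2 := h1 i hi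
    have h3 := rr_le h a hi
    rw [exfin] at h3
    omega
  have h2 : ∀ j, 1 ≤ j → j ≤ n → dn lam j + min a (ex lam 1 - ex lam j) = dn nu j + a := by
    intro j hj hjn
    have e1 : dn lam j = dn nu j + ∑ i ∈ Finset.range (n - j), rr lam a (j + i) := by
      rw [dn_eq_range, dn_eq_range, ← Finset.sum_add_distrib]
      apply Finset.sum_congr rfl
      intro i hi
      rw [Finset.mem_range] at hi
      have h3 := h1 ⟨j + i, by omega⟩ (by simp only; omega)
      rw [exlt lam (by omega : j + i < n), exlt nu (by omega : j + i < n)]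
      exact h3.symm
    have e2 := sum_rr h a j (n - j)
    rw [show j + (n - j) = n by omega, exge lam (le_refl n)] at e2
    have e3 : min a (ex lam 1 - 0) = a := by omega
    rw [e3] at e2
    omega
  have h3 := h2 1 le_rfl (by omega)
  have h4 : dn lam 1 = dn nu 1 + a := by
    have : min a (ex lam 1 - ex lam 1) = 0 := by simp
    omega
  refine ⟨nu, ?_, ?_, hle, hge, h4, ?_, ?_⟩
  · intro i j hij
    rcases Nat.eq_zero_or_pos (i : ℕ) with hi | hi
    · rcases Nat.eq_zero_or_pos (j : ℕ) with hj | hj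
      · have : i = j := Fin.ext (by omega)
        rw [this]
      · have e1 : nu i = T + a - dn lam 1 := by
          rw [hnu]
          simp only
          rw [if_pos hi]
        have e2 : nu j ≤ ex lam 1 := by
          refine (hle j hj).trans ?_
          rw [← exfin lam j]
          exact exanti h hj
        rw [e1]
        omega
    · have hj : 1 ≤ (j : ℕ) := by
        have : (i : ℕ) ≤ (j : ℕ) := hij
        omega
      rcases Nat.eq_or_lt_of_le (show (i : ℕ) ≤ (j : ℕ) from hij) with e | e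
      · have : i = j := Fin.ext e
        rw [this]
      · refine (hle j hj).trans (le_trans ?_ (hge i hi))
        rw [← exfin lam j]
        exact exanti h (by omega)
  · have e1 : ∑ i, nu i = ex nu 0 + dn nu 1 := by
      rw [← dn_zero, dn_succ]
    have e2 : ex nu 0 = T + a - dn lam 1 := by
      rw [exlt nu (by omega : 0 < n), hnu]
      simp
    rw [e1, e2]
    have e3 : dn lam 1 ≤ T + a := by omega
    omega
  · intro j hj
    rcases Nat.lt_or_ge n j with hn' | hn'
    · exact Or.inr hn'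
    · exact Or.inl (h2 j hj hn')
  · intro j hj
    exact dn_mono fun i hi => hle i (by omega)

end Vale.Agent.P181.PL
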